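import Mathlib

/-!
Local analytic flows of "polynomial" vector fields on a real Banach space, via the implicit
function theorem on the space of continuous paths.
-/

set_option autoImplicit false

open scoped ContDiff Topology unitInterval
open Set Metric

namespace Crest.Agent.R205

section Nem

variable {E F G H : Type*} [NormedAddCommGroup E] [NormedSpace ℝ E]
  [NormedAddCommGroup F] [NormedSpace ℝ F] [NormedAddCommGroup G] [NormedSpace ℝ G]
  [NormedAddCommGroup H] [NormedSpace ℝ H]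

/-- Pointwise application of a continuous bilinear map to two continuous paths. -/
noncomputable def liftBilin (B : F →L[ℝ] G →L[ℝ] H) : C(I, F) →L[ℝ] C(I, G) →L[ℝ] C(I, H) :=
  LinearMap.mkContinuous₂
    (LinearMap.mk₂ ℝ (fun (γ : C(I, F)) (η : C(I, G)) =>
        (⟨fun s => B (γ s) (η s), by fun_prop⟩ : C(I, H)))
      (fun _ _ _ => by ext s; simp) (fun _ _ _ => by ext s; simp)
      (fun _ _ _ => by ext s; simp) (fun _ _ _ => by ext s; simp))
    ‖B‖ (fun γ η => by
      refine (ContinuousMap.norm_le _ (by positivity)).2 fun s => ?_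
      calc ‖B (γ s) (η s)‖ ≤ ‖B‖ * ‖γ s‖ * ‖η s‖ := B.le_opNorm₂ _ _
        _ ≤ ‖B‖ * ‖γ‖ * ‖η‖ := by
          gcongr
          · exact γ.norm_coe_le_norm s
          · exact η.norm_coe_le_norm s)

@[simp] lemma liftBilin_apply (B : F →L[ℝ] G →L[ℝ] H) (γ : C(I, F)) (η : C(I, G)) (s : I) :
    liftBilin B γ η s = B (γ s) (η s) := rfl

/-- `f` induces an analytic map on spaces of continuous paths. -/
def Nem (f : E → F) : Prop :=
  ∃ N : C(I, E) → C(I, F), ContDiff ℝ ω N ∧ ∀ γ s, N γ s = f (γ s)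

lemma Nem.clm (A : E →L[ℝ] F) : Nem A :=
  ⟨A.compLeftContinuous ℝ I, (A.compLeftContinuous ℝ I).contDiff, fun _ _ => rfl⟩

lemma Nem.id : Nem (fun x : E => x) := ⟨fun γ => γ, contDiff_id, fun _ _ => rfl⟩

lemma Nem.add {f g : E → F} (hf : Nem f) (hg : Nem g) : Nem (fun x => f x + g x) := by
  obtain ⟨N, hN, hN'⟩ := hf
  obtain ⟨M, hM, hM'⟩ := hg
  exact ⟨fun γ => N γ + M γ, hN.add hM, fun γ s => by simp [hN', hM']⟩

lemma Nem.sub {f g : E → F} (hf : Nem f) (hg : Nem g) : Nem (fun x => f x - g x) := by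
  obtain ⟨N, hN, hN'⟩ := hf
  obtain ⟨M, hM, hM'⟩ := hg
  exact ⟨fun γ => N γ - M γ, hN.sub hM, fun γ s => by simp [hN', hM']⟩

lemma Nem.neg {f : E → F} (hf : Nem f) : Nem (fun x => - f x) := by
  obtain ⟨N, hN, hN'⟩ := hf
  exact ⟨fun γ => - N γ, hN.neg, fun γ s => by simp [hN']⟩

lemma Nem.bilin (B : F →L[ℝ] G →L[ℝ] H) {f : E → F} {g : E → G} (hf : Nem f) (hg : Nem g) :
    Nem (fun x => B (f x) (g x)) := by
  obtain ⟨N, hN, hN'⟩ := hf
  obtain ⟨M, hM, hM'⟩ := hg
  have h0 : ContDiff ℝ ω (fun γ : C(I, F) => liftBilin B γ) := by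
    have := ContinuousLinearMap.contDiff (𝕜 := ℝ) (n := ω) (E := C(I, F))
      (F := C(I, G) →L[ℝ] C(I, H)) (liftBilin B)
    exact this
  have h1 : ContDiff ℝ ω (fun γ => liftBilin B (N γ)) := h0.comp hN
  exact ⟨fun γ => liftBilin B (N γ) (M γ), h1.clm_apply hM, fun γ s => by simp [hN', hM']⟩

lemma Nem.smul {f : E → ℝ} {g : E → G} (hf : Nem f) (hg : Nem g) :
    Nem (fun x => f x • g x) :=
  Nem.bilin (ContinuousLinearMap.lsmul ℝ ℝ) hf hg

end Nem

section Flow

variable {E : Type*} [NormedAddCommGroup E] [NormedSpace ℝ E] [CompleteSpace E]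

/-- The projection of the line on the unit interval. -/
noncomputable def pr (p : ℝ) : I := projIcc (0 : ℝ) 1 zero_le_one p

lemma continuous_pr : Continuous pr := continuous_projIcc (h := zero_le_one)

lemma pr_coe {p : ℝ} (hp : p ∈ Icc (0 : ℝ) 1) : (pr p : ℝ) = p := by
  simp [pr, projIcc_of_mem _ hp]

omit [CompleteSpace E] [NormedSpace ℝ E] in
lemma intervalIntegrable_pr (η : C(I, E)) (s : I) :
    IntervalIntegrable (fun p : ℝ => η (s * pr p)) MeasureTheory.volume 0 1 :=
  (η.continuous.comp (continuous_const.mul continuous_pr)).intervalIntegrable _ _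

/-- The primitive operator `η ↦ (s ↦ ∫₀ˢ η)`, written in scaled form. -/
noncomputable def prim : C(I, E) →L[ℝ] C(I, E) :=
  LinearMap.mkContinuous
    { toFun := fun η => ⟨fun s => (s : ℝ) • ∫ p in (0 : ℝ)..1, η (s * pr p), by
        refine continuous_subtype_val.smul ?_
        refine intervalIntegral.continuous_parametric_intervalIntegral_of_continuous' ?_ _ _
        exact η.continuous.comp (continuous_fst.mul (continuous_pr.comp continuous_snd))⟩
      map_add' := fun η ζ => by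
        ext s
        simp only [ContinuousMap.add_apply, ContinuousMap.coe_mk]
        rw [intervalIntegral.integral_add (intervalIntegrable_pr η s) (intervalIntegrable_pr ζ s),
          smul_add]
      map_smul' := fun c η => by
        ext s
        simp only [ContinuousMap.smul_apply, ContinuousMap.coe_mk, RingHom.id_apply]
        rw [intervalIntegral.integral_smul, smul_comm] }
    1 (fun η => by
      refine (ContinuousMap.norm_le _ (by positivity)).2 fun s => ?_
      simp only [LinearMap.coe_mk, AddHom.coe_mk, ContinuousMap.coe_mk, one_mul]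
      rw [norm_smul]
      have h1 : ‖(s : ℝ)‖ ≤ 1 := by
        rw [Real.norm_eq_abs, abs_of_nonneg s.2.1]; exact s.2.2
      have h2 : ‖∫ p in (0 : ℝ)..1, η (s * pr p)‖ ≤ ‖η‖ * |1 - 0| :=
        intervalIntegral.norm_integral_le_of_norm_le_const fun p _ => η.norm_coe_le_norm _
      simp only [sub_zero, abs_one, mul_one] at h2
      calc _ ≤ 1 * ‖η‖ := by gcongr
        _ = ‖η‖ := one_mul _)

omit [CompleteSpace E] in
lemma prim_apply (η : C(I, E)) (s : I) :
    prim η s = (s : ℝ) • ∫ p in (0 : ℝ)..1, η (s * pr p) := rfl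

/-- Local analytic flow near the origin of a vector field acting analytically on paths. -/
theorem exists_local_flow {V : E → E} (hV : Nem V) (hVc : Continuous V) :
    ∃ δ : ℝ, 0 < δ ∧ ∃ Φ : ℝ × E → E, (∀ p ∈ Ioo (-δ) δ ×ˢ ball (0 : E) δ, ContDiffAt ℝ ω Φ p) ∧
      ∀ z ∈ ball (0 : E) δ, Φ (0, z) = z ∧
        ∀ t ∈ Ioo (-δ) δ, HasDerivAt (fun s => Φ (s, z)) (V (Φ (t, z))) t := by
  obtain ⟨N, hN, hN'⟩ := hV
  let f : (ℝ × E) × C(I, E) → C(I, E) := fun q =>
    q.2 - ContinuousLinearMap.const ℝ I q.1.2 - q.1.1 • prim (N q.2)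
  have hf : ContDiff ℝ ω f := by
    refine (contDiff_snd.sub ?_).sub ?_
    · exact (ContinuousLinearMap.contDiff (𝕜 := ℝ) (E := E) (F := C(I, E))
        (ContinuousLinearMap.const ℝ I)).comp (contDiff_snd.comp contDiff_fst)
    · exact (contDiff_fst.comp contDiff_fst).smul (prim.contDiff.comp (hN.comp contDiff_snd))
  have hf0 : ContDiffAt ℝ ω f (0 : (ℝ × E) × C(I, E)) := hf.contDiffAt
  have hinv : (fderiv ℝ f 0 ∘L .inr ℝ (ℝ × E) C(I, E)).IsInvertible := by
    have h1 : HasFDerivAt (f ∘ (ContinuousLinearMap.inr ℝ (ℝ × E) C(I, E)))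
        (fderiv ℝ f 0 ∘L .inr ℝ (ℝ × E) C(I, E)) 0 := by
      refine HasFDerivAt.comp _ ?_ (ContinuousLinearMap.inr ℝ (ℝ × E) C(I, E)).hasFDerivAt
      rw [map_zero]
      exact (hf.differentiable (by simp) 0).hasFDerivAt
    have h2 : (f ∘ (ContinuousLinearMap.inr ℝ (ℝ × E) C(I, E))) = id := by
      funext γ
      simp [f]
    rw [h2] at h1
    rw [h1.unique (hasFDerivAt_id _)]
    exact ⟨ContinuousLinearEquiv.refl _ _, rfl⟩
  set ψ := hf0.implicitFunction (by simp) hinv with hψ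
  have hψc : ContDiffAt ℝ ω ψ 0 := hf0.contDiffAt_implicitFunction (by simp) hinv
  have hψ0 : ψ 0 = 0 := hf0.implicitFunction_apply_self (by simp) hinv
  have hf00 : f 0 = 0 := by simp [f]
  have huniq : ∀ᶠ v in 𝓝 (0 : (ℝ × E) × C(I, E)), f v = 0 ↔ ψ v.1 = v.2 := by
    simpa [hf00] using hf0.eventually_apply_eq_iff_implicitFunction (by simp) hinv
  obtain ⟨ε, hε, huniq⟩ := Metric.eventually_nhds_iff_ball.1 huniq
  have h1 : ∀ᶠ p in 𝓝 (0 : ℝ × E), ContDiffAt ℝ ω ψ p := hψc.eventually (by simp)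
  have h2 : ∀ᶠ p in 𝓝 (0 : ℝ × E), ψ p ∈ ball (0 : C(I, E)) ε := by
    apply hψc.continuousAt.eventually_mem
    rw [hψ0]; exact ball_mem_nhds _ hε
  have h3 : ∀ᶠ p in 𝓝 (0 : ℝ × E), p ∈ ball (0 : ℝ × E) ε := ball_mem_nhds _ hε
  obtain ⟨δ, hδ, hall⟩ := Metric.eventually_nhds_iff_ball.1 (h1.and (h2.and h3))
  have hmem : ∀ t ∈ Ioo (-δ) δ, ∀ z ∈ ball (0 : E) δ, (t, z) ∈ ball (0 : ℝ × E) δ := by
    intro t ht z hz
    rw [mem_ball_zero_iff] at hz ⊢
    rw [Prod.norm_def]
    exact max_lt (by rw [Real.norm_eq_abs, abs_lt]; exact ht) hz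
  have hmem2 : ∀ p ∈ ball (0 : ℝ × E) δ, ∀ γ ∈ ball (0 : C(I, E)) ε,
      (p, γ) ∈ ball (0 : (ℝ × E) × C(I, E)) ε := by
    intro p hp γ hγ
    have := (hall p hp).2.2
    rw [mem_ball_zero_iff] at this hγ ⊢
    rw [Prod.norm_def]
    exact max_lt this hγ
  have heq : ∀ p ∈ ball (0 : ℝ × E) δ, ∀ s : I,
      ψ p s = p.2 + p.1 • (s : ℝ) • ∫ r in (0 : ℝ)..1, V (ψ p (s * pr r)) := by
    intro p hp s
    have h := (huniq _ (hmem2 p hp _ (hall p hp).2.1)).2 rfl
    have h' := congrArg (fun γ : C(I, E) => γ s) h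
    simp only [f, ContinuousMap.sub_apply, ContinuousMap.smul_apply, prim_apply, hN',
      ContinuousMap.zero_apply] at h'
    rw [sub_sub, sub_eq_zero] at h'
    simpa using h'
  -- scaling
  have hscale : ∀ t ∈ Ioo (-δ) δ, ∀ z ∈ ball (0 : E) δ, ∀ s : I,
      ψ (t * s, z) 1 = ψ (t, z) s := by
    intro t ht z hz s
    have hts : t * s ∈ Ioo (-δ) δ := by
      have : |t * s| < δ := by
        rw [abs_mul, abs_of_nonneg s.2.1]
        calc |t| * s ≤ |t| * 1 := by gcongr; exact s.2.2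
          _ < δ := by rw [mul_one, abs_lt]; exact ht
      exact abs_lt.1 this
    let γ : C(I, E) := (ψ (t, z)).comp ⟨fun r => s * r, by fun_prop⟩
    have hγ : γ ∈ ball (0 : C(I, E)) ε := by
      have := (hall _ (hmem t ht z hz)).2.1
      rw [mem_ball_zero_iff] at this ⊢
      refine lt_of_le_of_lt ?_ this
      exact (ContinuousMap.norm_le _ (norm_nonneg _)).2 fun r => (ψ (t, z)).norm_coe_le_norm _
    have h := (huniq _ (hmem2 _ (hmem _ hts z hz) γ hγ)).1 (by
      ext r
      simp only [f, ContinuousMap.sub_apply, ContinuousMap.smul_apply, prim_apply, hN',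
        ContinuousMap.zero_apply, γ, ContinuousMap.comp_apply, ContinuousMap.coe_mk]
      rw [heq _ (hmem t ht z hz) (s * r)]
      simp [smul_smul, mul_assoc])
    simp only at h
    rw [h]
    simp [γ]
  refine ⟨δ, hδ, fun p => ψ p 1, fun p hp => ?_, fun z hz => ⟨?_, fun t ht => ?_⟩⟩
  · exact (ContinuousMap.evalCLM ℝ (1 : I)).contDiff.contDiffAt.comp p
      (hall p (hmem _ hp.1 _ hp.2)).1
  · have := heq _ (hmem 0 ⟨by linarith, hδ⟩ z hz) 1
    simpa using this
  · have hcont : ContinuousOn (fun s : ℝ => V (ψ (s, z) 1)) (Ioo (-δ) δ) := by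
      intro s hs
      refine ContinuousAt.continuousWithinAt ?_
      refine hVc.continuousAt.comp ?_
      refine (ContinuousMap.evalCLM ℝ (1 : I)).continuous.continuousAt.comp
        (f := fun s : ℝ => ψ (s, z)) ?_
      exact (hall _ (hmem s hs z hz)).1.continuousAt.comp (f := fun s : ℝ => (s, z)) (by fun_prop)
    have hint : ∀ s ∈ Ioo (-δ) δ, ψ (s, z) 1 = z + ∫ r in (0 : ℝ)..s, V (ψ (r, z) 1) := by
      intro s hs
      rw [heq _ (hmem s hs z hz) 1]
      simp only [Set.Icc.coe_one, one_smul, one_mul, add_right_inj]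
      have : ∫ r in (0 : ℝ)..1, V (ψ (s, z) (pr r)) = ∫ r in (0 : ℝ)..1, V (ψ (s * r, z) 1) := by
        refine intervalIntegral.integral_congr fun r hr => ?_
        rw [uIcc_of_le zero_le_one] at hr
        rw [← hscale s hs z hz (pr r), pr_coe hr]
      rw [this, intervalIntegral.smul_integral_comp_mul_left (fun r => V (ψ (r, z) 1)) s]
      simp
    have h0 : (0 : ℝ) ∈ Ioo (-δ) δ := ⟨by linarith, hδ⟩
    have hd : HasDerivAt (fun s => z + ∫ r in (0 : ℝ)..s, V (ψ (r, z) 1)) (V (ψ (t, z) 1)) t := by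
      refine HasDerivAt.const_add z ?_
      refine intervalIntegral.integral_hasDerivAt_right ?_ ?_ ?_
      · refine (hcont.mono ?_).intervalIntegrable
        exact (ordConnected_Ioo.uIcc_subset h0 ht)
      · exact hcont.stronglyMeasurableAtFilter isOpen_Ioo t ht
      · exact hcont.continuousAt (isOpen_Ioo.mem_nhds ht)
    refine hd.congr_of_eventuallyEq ?_
    filter_upwards [isOpen_Ioo.mem_nhds ht] with s hs using hint s hs

end Flow

end Crest.Agent.R205
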